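import Vale.Agent.P006.Main.TypeOne
import Vale.Agent.P006.V2.GenErr

/-!
P006: what the automorphic part has to deliver, and how it is combined.
-/

namespace Vale.Agent.P006

/-- (i) existence of the residues `θ` (helper909, helper712, helper2, helper335) -/
def AutExists : Prop := ∃ θ : O → ℂ, V2.FCHyp θ

/-- (ii) local relations (helper9) -/
def AutRho : Prop := ∀ θ : O → ℂ, V2.FCHyp θ → V2.Rho3 θ

/-- (iii) modulus (helper627) -/
def AutNorm : Prop := ∀ θ : O → ℂ, V2.FCHyp θ → V2.Rho3 θ → ‖θ 1‖ = cStar * TI.kap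

/-- (iv) sign (helper226) -/
def AutSign : Prop := ∀ θ : O → ℂ, V2.FCHyp θ → V2.Rho3 θ → (θ 1).im = 0 ∧ 0 < (θ 1).re

theorem aut_of (h1 : AutExists) (h2 : AutRho) (h3 : AutNorm) (h4 : AutSign) :
    ∃ θ : O → ℂ, V2.FCHyp θ ∧ V2.Rho3 θ ∧ θ 1 = (((cStar * TI.kap : ℝ)) : ℂ) := by
  obtain ⟨θ, hθ⟩ := h1
  have hR := h2 θ hθ
  refine ⟨θ, hθ, hR, ?_⟩
  obtain ⟨him, hre⟩ := h4 θ hθ hR
  have e : θ 1 = (((θ 1).re : ℝ) : ℂ) := by
    apply Complex.ext
    · simp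
    · simp [him]
  have hn := h3 θ hθ hR
  rw [e] at hn
  rw [Complex.norm_real, Real.norm_eq_abs, abs_of_pos hre] at hn
  rw [e, hn]

end Vale.Agent.P006
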