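import Vale.Agent.P006.CR.GaussSum
import Mathlib.Analysis.SpecialFunctions.Gamma.BohrMollerup
import Mathlib.Analysis.Real.Pi.Bounds

/-!
P006: common definitions for the final assembly.

* `InP c` : `c` is primary and squarefree;
* `cStar = (2π)^(2/3) / (3 Γ(2/3))`;
* `wf c = g̃(1,c) - cStar N(c)^(-1/6)` on `InP`, and `0` elsewhere.
-/

namespace Vale.Agent.P006

/-- squarefree primary elements -/
def InP (c : O) : Prop := Primary c ∧ Squarefree c

noncomputable instance (c : O) : Decidable (InP c) := Classical.dec _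

/-- Patterson's constant `(2π)^(2/3) / (3 Γ(2/3))` -/
noncomputable def cStar : ℝ := (2 * Real.pi) ^ (2 / 3 : ℝ) / (3 * Real.Gamma (2 / 3))

/-- normalised cubic Gauss sum minus its model on squarefree primary elements, `0` elsewhere -/
noncomputable def wf (c : O) : ℂ :=
  if InP c then gt 1 c - ((cStar * (N c : ℝ) ^ (-(1 / 6) : ℝ) : ℝ) : ℂ) else 0

theorem wf_of_not {c : O} (h : ¬ InP c) : wf c = 0 := if_neg h

theorem wf_of {c : O} (h : InP c) :
    wf c = gt 1 c - ((cStar * (N c : ℝ) ^ (-(1 / 6) : ℝ) : ℝ) : ℂ) := if_pos h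

theorem cStar_pos : 0 < cStar := by
  unfold cStar
  have := Real.Gamma_pos_of_pos (show (0 : ℝ) < 2 / 3 by norm_num)
  positivity

theorem half_le_Gamma_pow : (1 / 2 : ℝ) ≤ Real.Gamma (5 / 3) ^ 3 := by
  have h := Real.Gamma_mul_add_mul_le_rpow_Gamma_mul_rpow_Gamma
    (show (0 : ℝ) < 5 / 3 by norm_num) (show (0 : ℝ) < 3 by norm_num)
    (show (0 : ℝ) < 3 / 4 by norm_num) (show (0 : ℝ) < 1 / 4 by norm_num) (by norm_num)
  have e1 : (3 / 4 * (5 / 3) + 1 / 4 * 3 : ℝ) = 2 := by norm_num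
  have e2 : Real.Gamma 3 = 2 := by
    have := Real.Gamma_nat_eq_factorial 2
    rw [show ((2 : ℕ) : ℝ) + 1 = 3 by norm_num] at this
    rw [this]; norm_num [Nat.factorial]
  rw [e1, Real.Gamma_two, e2] at h
  have hG : 0 < Real.Gamma (5 / 3) := Real.Gamma_pos_of_pos (by norm_num)
  have h4 : (1 : ℝ) ^ 4 ≤ (Real.Gamma (5 / 3) ^ (3 / 4 : ℝ) * (2 : ℝ) ^ (1 / 4 : ℝ)) ^ 4 :=
    pow_le_pow_left₀ zero_le_one h 4
  rw [mul_pow, ← Real.rpow_natCast (Real.Gamma (5 / 3) ^ (3 / 4 : ℝ)), ← Real.rpow_mul hG.le,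
    ← Real.rpow_natCast ((2 : ℝ) ^ (1 / 4 : ℝ)), ← Real.rpow_mul (by norm_num)] at h4
  norm_num at h4
  have e3 : Real.Gamma (5 / 3) ^ (3 : ℝ) = Real.Gamma (5 / 3) ^ 3 := by
    rw [← Real.rpow_natCast]; norm_num
  linarith

theorem cStar_le_one : cStar ≤ 1 := by
  unfold cStar
  have hG : 0 < Real.Gamma (2 / 3) := Real.Gamma_pos_of_pos (by norm_num)
  rw [div_le_one (by positivity)]
  have h1 : Real.Gamma (5 / 3) = 2 / 3 * Real.Gamma (2 / 3) := by
    have := Real.Gamma_add_one (show (2 / 3 : ℝ) ≠ 0 by norm_num)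
    rw [← this]; norm_num
  have h2 := half_le_Gamma_pow
  rw [h1] at h2
  have hp : (0 : ℝ) < Real.pi := Real.pi_pos
  refine le_of_pow_le_pow_left₀ (n := 3) (by norm_num) (by positivity) ?_
  rw [← Real.rpow_natCast ((2 * Real.pi) ^ (2 / 3 : ℝ)), ← Real.rpow_mul (by positivity)]
  have e : (2 / 3 : ℝ) * ((3 : ℕ) : ℝ) = (2 : ℕ) := by norm_num
  rw [e, Real.rpow_natCast]
  have h3 := Real.pi_lt_d2
  nlinarith

theorem InP.primary {c : O} (h : InP c) : Primary c := h.1
theorem InP.squarefree {c : O} (h : InP c) : Squarefree c := h.2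
theorem InP.ne_zero {c : O} (h : InP c) : c ≠ 0 := h.1.ne_zero

theorem inP_one : InP 1 := ⟨primary_one, squarefree_one⟩

/-- for primary `a`, `b`: `ab` is squarefree iff both are and they are coprime -/
theorem inP_mul_iff {a b : O} (ha : Primary a) (hb : Primary b) :
    InP (a * b) ↔ InP a ∧ InP b ∧ IsCoprime a b := by
  constructor
  · rintro ⟨_, h⟩
    refine ⟨⟨ha, h.squarefree_of_dvd (dvd_mul_right a b)⟩,
      ⟨hb, h.squarefree_of_dvd (dvd_mul_left b a)⟩, ?_⟩
    rw [← isRelPrime_iff_isCoprime]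
    intro d hda hdb
    exact h d (mul_dvd_mul hda hdb)
  · rintro ⟨⟨_, h1⟩, ⟨_, h2⟩, h⟩
    refine ⟨ha.mul hb, ?_⟩
    rw [squarefree_mul_iff]
    exact ⟨isRelPrime_iff_isCoprime.2 h, h1, h2⟩

theorem InP.mul {a b : O} (ha : InP a) (hb : InP b) (h : IsCoprime a b) : InP (a * b) :=
  (inP_mul_iff ha.1 hb.1).2 ⟨ha, hb, h⟩

/-- twisted multiplicativity of `g̃(1,·)` -/
theorem gt_one_mul {a b : O} (ha : InP a) (hb : InP b) (h : IsCoprime a b) :
    gt 1 (a * b) = (starRingEnd ℂ) (toC (sym a b)) * gt 1 a * gt 1 b :=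
  gt_mul_primary 1 ha.1 hb.1 h

theorem wf_mul {a b : O} (ha : InP a) (hb : InP b) (h : IsCoprime a b) :
    wf (a * b) = (starRingEnd ℂ) (toC (sym a b)) * gt 1 a * gt 1 b
      - ((cStar * (N a : ℝ) ^ (-(1 / 6) : ℝ) * (N b : ℝ) ^ (-(1 / 6) : ℝ) : ℝ) : ℂ) := by
  rw [wf_of (ha.mul hb h), gt_one_mul ha hb h, N_mul, Nat.cast_mul,
    Real.mul_rpow (Nat.cast_nonneg _) (Nat.cast_nonneg _), mul_assoc cStar]

theorem wf_mul_of_not_coprime {a b : O} (ha : Primary a) (hb : Primary b) (h : ¬ IsCoprime a b) :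
    wf (a * b) = 0 :=
  wf_of_not fun h' => h ((inP_mul_iff ha hb).1 h').2.2

theorem norm_gt_one {c : O} (h : InP c) : ‖gt 1 c‖ = 1 :=
  norm_gt h.1 h.2 isCoprime_one_left

theorem one_le_N {c : O} (h : c ≠ 0) : (1 : ℝ) ≤ N c := by exact_mod_cast N_pos h

theorem norm_wf_le (c : O) : ‖wf c‖ ≤ 1 + cStar := by
  by_cases h : InP c
  · rw [wf_of h]
    refine (norm_sub_le _ _).trans ?_
    rw [norm_gt_one h, Complex.norm_real, Real.norm_eq_abs, abs_of_nonneg (by
      have := cStar_pos; positivity)]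
    have h1 : (N c : ℝ) ^ (-(1 / 6) : ℝ) ≤ 1 :=
      Real.rpow_le_one_of_one_le_of_nonpos (one_le_N h.ne_zero) (by norm_num)
    have := cStar_pos
    nlinarith
  · rw [wf_of_not h, norm_zero]
    have := cStar_pos
    linarith

theorem norm_wf_le_two (c : O) : ‖wf c‖ ≤ 2 := by
  have h1 := norm_wf_le c
  have h2 := cStar_le_one
  linarith

theorem wf_star {c : O} : wf (star c) = (starRingEnd ℂ) (wf c) := by
  by_cases h : InP c
  · have h' : InP (star c) := by
      refine ⟨h.1.star, ?_⟩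
      intro x hx
      have h2 : star x * star x ∣ c := by
        rw [← star_mul]
        exact (star_dvd_iff).2 hx
      have := h.2 _ h2
      rw [isUnit_iff_N] at this ⊢
      rwa [N_star] at this
    rw [wf_of h, wf_of h', map_sub, N_star]
    congr 1
    · rw [← gt_star 1 h.ne_zero, star_one]
    · rw [Complex.conj_ofReal]
  · have h' : ¬ InP (star c) := by
      intro h1
      apply h
      refine ⟨primary_star_iff.1 h1.1, ?_⟩
      intro x hx
      have h2 : star x * star x ∣ star c := by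
        rw [← star_mul, star_dvd_iff, star_star]
        exact hx
      have := h1.2 _ h2
      rw [isUnit_iff_N] at this ⊢
      rwa [N_star] at this
    rw [wf_of_not h, wf_of_not h', map_zero]

end Vale.Agent.P006
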