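import Vale.Agent.P006.Main.Final

/-!
P006: bridges between landed theorems and the hypotheses of `q1_main`.
-/

namespace Vale.Agent.P006

open Finset

theorem sepXi : V1C.SepXi := by
  intro V0 hV σ hσ
  obtain ⟨C, c, hC, hc, h⟩ := V1X.sepK_xi hV hσ
  exact ⟨C, c, hC, hc, h⟩

theorem ncBound : V1C.NCBound := by
  classical
  intro W hW
  refine ⟨100 * (N W : ℝ) ^ 6, by positivity, fun V hV H1 H2 C hC h1 h2 A B hA hB α hα => ?_⟩
  have h := V1.nc_bound hV h1 h2 hW.1 (by linarith) (by linarith) hα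
  have e : ∑ a1 ∈ SPB (2 * A), ∑ a2 ∈ SPB (2 * A), α a1 * (starRingEnd ℂ) (α a2) *
      V1.ncPair V B W a1 a2 = V1.NCtot V B W α A := by
    rw [V1.NCtot, V1.supp, sum_filter]
    refine sum_congr rfl fun a1 _ => ?_
    by_cases z1 : α a1 = 0
    · simp [z1]
    rw [if_pos z1, sum_filter]
    refine sum_congr rfl fun a2 _ => ?_
    by_cases z2 : α a2 = 0
    · simp [z2]
    rw [if_pos z2]
  rw [e]
  exact h

theorem v1Hyp_of_cube (h : V1C.CubeXi) : DISP.V1Hyp := V1C.v1Hyp_of h sepXi ncBound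

theorem hbsq : HBsq := by
  intro ε hε
  obtain ⟨C, hC, h⟩ := PS.cubic_large_sieve_symC ε hε
  refine ⟨C, hC, fun K M hK hM c => ?_⟩
  have h1 := h K M hK hM c
  have e : ∀ X, HB.SF X = SPB X := by
    intro X
    ext z
    rw [HB.mem_SF, mem_SPB]
    constructor
    · rintro ⟨h1, h2, h3⟩
      exact ⟨⟨h2, h1⟩, h3⟩
    · rintro ⟨⟨h2, h1⟩, h3⟩
      exact ⟨h1, h2, h3⟩
  rw [e, e] at h1
  refine le_trans (le_of_eq ?_) h1
  refine sum_congr rfl fun n hn => ?_
  congr 2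
  refine sum_congr rfl fun k hk => ?_
  rw [HB.symC, recip (mem_SPB.1 hk).1.1 (mem_SPB.1 hn).1.1]

end Vale.Agent.P006
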