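import Vale.Agent.P006.H845.Final
import Vale.Agent.P006.Q1

/-!
P006: the last implication `∑_{ϖ} wf ϖ = o(X^{5/6}/log X) ⟹ Q1Stmt`.
-/

namespace Vale.Agent.P006

open Finset Filter Topology

theorem q1_of_wf
    (h : Tendsto (fun X : ℝ => ‖∑ π ∈ PP X, wf π‖ / (X ^ ((5 : ℝ) / 6) / Real.log X))
      atTop (𝓝 0)) : Q1Stmt := by
  have h0 : Tendsto (fun X : ℝ =>
      (∑ π ∈ PP X, wf π) * ((Real.log X / X ^ ((5 : ℝ) / 6) : ℝ) : ℂ)) atTop (𝓝 0) := by
    rw [tendsto_zero_iff_norm_tendsto_zero]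
    refine h.congr' ?_
    filter_upwards [eventually_gt_atTop 1] with X hX
    have hl : 0 < Real.log X := Real.log_pos hX
    have hX0 : 0 < X ^ ((5 : ℝ) / 6) := Real.rpow_pos_of_pos (by linarith) _
    rw [norm_mul, Complex.norm_real, Real.norm_of_nonneg (by positivity)]
    field_simp
  have h1 := kummer_form_of_wf h0
  unfold Q1Stmt
  refine h1.congr fun X => ?_
  rw [div_div_eq_mul_div, mul_div_assoc]
  congr 1
  refine sum_congr ?_ fun _ _ => rfl
  ext p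
  simp only [mem_filter, mem_range, mem_Icc]
  constructor
  · rintro ⟨h1, h2, h3⟩
    exact ⟨⟨h2.one_lt.le, by omega⟩, h2, h3⟩
  · rintro ⟨⟨h1, h1'⟩, h2, h3⟩
    exact ⟨by omega, h2, h3⟩

end Vale.Agent.P006
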