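import Vale.Agent.P006.Main.Aut
import Vale.Agent.P006.Main.Q1OfWf
import Vale.Agent.P006.H103.Inst
import Vale.Agent.P006.DISP.Disp
import Vale.Agent.P006.CM.ThSum
import Vale.Agent.P006.V1C.Main
import Vale.Agent.P006.V1X.Sep
import Vale.Agent.P006.V1.Total
import Vale.Agent.P006.TI.V23
import Vale.Agent.P006.DN.TII
import Vale.Agent.P006.PS.PStar

/-!
P006: Patterson's first moment conjecture from the remaining inputs.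
-/

namespace Vale.Agent.P006

open Finset Filter Topology

/-- DN from the dispersion theorem -/
def DNGoal : Prop := DISP.DispStmt → ∀ δ : ℝ, 0 < δ → δ ≤ 1 / 3 → DNHyp wf δ

/-- edge from DN -/
def EdgeGoal : Prop := (∀ δ : ℝ, 0 < δ → δ ≤ 1 / 3 → DNHyp wf δ) →
  ∀ η : ℝ, 0 < η → η ≤ 1 / 3 → ∃ d₀ : ℝ, 0 < d₀ ∧ ∀ d : ℝ, 0 < d → d ≤ d₀ → EdgeH wf d η

/-- centre -/
def CentreGoal : Prop := DISP.DispStmt →
  ∀ η : ℝ, 0 < η → η ≤ 1 / 3 → ∃ κ₀ : ℝ, 0 < κ₀ ∧ ∀ κ : ℝ, 0 < κ → κ ≤ κ₀ →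
    TIIPH wf κ η ∧ TIIBH wf κ η

theorem dispStmt_main (hAut : ∃ θ : O → ℂ, V2.FCHyp θ ∧ V2.Rho3 θ ∧
      θ 1 = (((cStar * TI.kap : ℝ)) : ℂ))
    (hV1 : DISP.V1Hyp) : DISP.DispStmt := by
  obtain ⟨θ, h, hR, h1⟩ := hAut
  have hL := l2f_wf h hR.1 h1
  exact DISP.dispStmt_of hV1 CM.v3Hyp (TI.v23Hyp hL)

theorem wf_main (hAut : ∃ θ : O → ℂ, V2.FCHyp θ ∧ V2.Rho3 θ ∧
      θ 1 = (((cStar * TI.kap : ℝ)) : ℂ))
    (hV1 : DISP.V1Hyp) (hDN : DNGoal) (hE : EdgeGoal) (hC : CentreGoal) (hHB : HBsq) :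
    Tendsto (fun X : ℝ => ‖∑ π ∈ PP X, wf π‖ / (X ^ ((5 : ℝ) / 6) / Real.log X)) atTop (𝓝 0) := by
  have hD := dispStmt_main hAut hV1
  have hDN' := hDN hD
  obtain ⟨d₀, hd₀, hE'⟩ := hE hDN' (1 / 100) (by norm_num) (by norm_num)
  obtain ⟨κ₀, hκ₀, hC'⟩ := hC hD (1 / 100) (by norm_num) (by norm_num)
  obtain ⟨θ, h, hR, h1⟩ := hAut
  have hT1 := t1s_wf h hR.1 h1
  set κ : ℝ := min κ₀ (1 / 100) with hκ
  set d : ℝ := min d₀ (1 / 2000) with hd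
  have hκ0 : 0 < κ := lt_min hκ₀ (by norm_num)
  have hκ1 : κ ≤ 1 / 100 := min_le_right _ _
  have hd0 : 0 < d := lt_min hd₀ (by norm_num)
  have hd1 : d ≤ 1 / 2000 := min_le_right _ _
  obtain ⟨TP, TB⟩ := hC' κ hκ0 (min_le_left _ _)
  have T2 : SV.TIIGen wf d κ := VR.TIIGen_of_TIIX
    (DN.tiix_of_dn hd0 hκ0 hκ0 le_rfl (by linarith) (hDN' κ hκ0 (by linarith)) hHB)
  exact VR.wf_primes_tendsto' hd0 hκ0 (by norm_num : (0:ℝ) < 1 / 100) (by norm_num)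
    (by linarith) (by linarith : d < 1 / 1000) (by norm_num) hT1 T2 TP TB (hE' d hd0 (min_le_left _ _))

theorem q1_main (hAut : ∃ θ : O → ℂ, V2.FCHyp θ ∧ V2.Rho3 θ ∧
      θ 1 = (((cStar * TI.kap : ℝ)) : ℂ))
    (hV1 : DISP.V1Hyp) (hDN : DNGoal) (hE : EdgeGoal) (hC : CentreGoal) (hHB : HBsq) :
    Q1Stmt := q1_of_wf (wf_main hAut hV1 hDN hE hC hHB)

end Vale.Agent.P006
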