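import Vale.Agent.P006.Q1
import Mathlib.Analysis.SpecialFunctions.Trigonometric.Basic
import Mathlib.Analysis.Complex.Exponential

/-!
P006: the rational-prime form with complex exponentials.
-/

namespace Vale.Agent.P006

open Filter Topology Real Finset

/-- Kummer's sum `∑_{x mod p} e(x³/p)` -/
noncomputable def kummerExp (p : ℕ) : ℂ :=
  ∑ x ∈ Finset.range p, Complex.exp (2 * π * Complex.I * ((x : ℂ) ^ 3 / p))

theorem sum_sin_cube (p : ℕ) (hp : 0 < p) :
    ∑ x ∈ Finset.range p, Real.sin (2 * π * (x : ℝ) ^ 3 / p) = 0 := by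
  have hp0 : (p : ℝ) ≠ 0 := by positivity
  have h1 : ∑ x ∈ Finset.range p, Real.sin (2 * π * (x : ℝ) ^ 3 / p) =
      ∑ x ∈ Finset.Ico 1 p, Real.sin (2 * π * (x : ℝ) ^ 3 / p) := by
    rw [Finset.range_eq_Ico, Finset.sum_eq_sum_Ico_succ_bot hp]
    simp
  have h2 : ∑ x ∈ Finset.Ico 1 p, Real.sin (2 * π * (x : ℝ) ^ 3 / p) =
      ∑ x ∈ Finset.Ico 1 p, -Real.sin (2 * π * (x : ℝ) ^ 3 / p) := by
    refine Finset.sum_nbij' (fun x => p - x) (fun x => p - x) ?_ ?_ ?_ ?_ ?_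
    · intro x hx; rw [Finset.mem_Ico] at hx ⊢; omega
    · intro x hx; rw [Finset.mem_Ico] at hx ⊢; omega
    · intro x hx; rw [Finset.mem_Ico] at hx; show p - (p - x) = x; omega
    · intro x hx; rw [Finset.mem_Ico] at hx; show p - (p - x) = x; omega
    · intro x hx
      rw [Finset.mem_Ico] at hx
      have hc : ((p - x : ℕ) : ℝ) = p - x := by rw [Nat.cast_sub hx.2.le]
      rw [hc]
      have e : 2 * π * ((p : ℝ) - x) ^ 3 / p =
          ((((p : ℤ) ^ 2 - 3 * p * x + 3 * x ^ 2 : ℤ) : ℤ) : ℝ) * (2 * π) - 2 * π * (x : ℝ) ^ 3 / p := by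
        push_cast
        field_simp
        ring
      rw [e, Real.sin_int_mul_two_pi_sub]
      simp
  rw [h1]
  rw [Finset.sum_neg_distrib] at h2
  linarith

theorem kummerExp_eq (p : ℕ) (hp : 0 < p) :
    kummerExp p = ((∑ x ∈ Finset.range p, Real.cos (2 * π * (x : ℝ) ^ 3 / p) : ℝ) : ℂ) := by
  have h : kummerExp p = ((∑ x ∈ Finset.range p, Real.cos (2 * π * (x : ℝ) ^ 3 / p) : ℝ) : ℂ) +
      ((∑ x ∈ Finset.range p, Real.sin (2 * π * (x : ℝ) ^ 3 / p) : ℝ) : ℂ) * Complex.I := by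
    rw [kummerExp]
    push_cast
    rw [Finset.sum_mul, ← Finset.sum_add_distrib]
    refine Finset.sum_congr rfl fun x _ => ?_
    rw [← Complex.exp_mul_I]
    congr 1
    ring
  rw [h, sum_sin_cube p hp]
  simp

/-- rational-prime form with complex exponentials -/
theorem q1_exp (h : Q1Stmt) :
    Tendsto (fun X : ℝ =>
      (∑ p ∈ (Finset.Icc 1 ⌊X⌋₊).filter (fun p : ℕ => p.Prime ∧ p % 3 = 1),
        (∑ x ∈ Finset.range p, Complex.exp (2 * π * Complex.I * ((x : ℂ) ^ 3 / p))) /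
          ((2 * √(p : ℝ) : ℝ) : ℂ))
        / ((X ^ (5 / 6 : ℝ) / Real.log X : ℝ) : ℂ))
    atTop (𝓝 (((2 * π) ^ (2 / 3 : ℝ) / (5 * Real.Gamma (2 / 3)) : ℝ) : ℂ)) := by
  have h1 := (Complex.continuous_ofReal.tendsto _).comp h
  refine h1.congr fun X => ?_
  simp only [Function.comp_apply]
  rw [Complex.ofReal_div, Complex.ofReal_sum]
  congr 1
  refine Finset.sum_congr rfl fun p hp => ?_
  rw [Finset.mem_filter, Finset.mem_Icc] at hp
  rw [Complex.ofReal_div]
  congr 1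
  exact (kummerExp_eq p (by omega)).symm

end Vale.Agent.P006
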