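import Vale.Agent.P006.Main.Bridges
import Vale.Agent.P006.H2.Exists
import Vale.Agent.P006.R1.AutRho
import Vale.Agent.P006.CM.V1Hyp
import Vale.Agent.P006.CM.AutNorm
import Vale.Agent.P006.SV.Goal
import Vale.Agent.P006.SG.Main
import Vale.Agent.P006.DN.Main

/-!
P006: everything except the centre.
-/

namespace Vale.Agent.P006

open Finset Filter Topology

theorem autMain : ∃ θ : O → ℂ, V2.FCHyp θ ∧ V2.Rho3 θ ∧ θ 1 = (((cStar * TI.kap : ℝ)) : ℂ) :=
  aut_of FC.autExists R1.autRho CM.autNorm SG.autSign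

theorem dispStmt : DISP.DispStmt := dispStmt_main autMain CM.v1Hyp

theorem dnGoal : DNGoal := fun hD _ h0 h3 => DN.dnHyp_of hD h0 (by linarith)

theorem wf_of_centre (hC : CentreGoal) :
    Tendsto (fun X : ℝ => ‖∑ π ∈ PP X, wf π‖ / (X ^ ((5 : ℝ) / 6) / Real.log X)) atTop (𝓝 0) :=
  wf_main autMain CM.v1Hyp dnGoal SV.edgeGoal hC hbsq

theorem q1_of_centre (hC : CentreGoal) : Q1Stmt :=
  q1_of_wf (wf_of_centre hC)

end Vale.Agent.P006
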