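import Vale.Agent.P006.Main.PrimaryDefs
import Vale.Agent.P006.Main.Forms
import Vale.Agent.P006.Main.Q1OfWf

/-!
P006: the primary-prime form with self-contained definitions.
-/

namespace Vale.Agent.P006.Std

open Filter Topology Real

/-! ### comparison with the working definitions -/

theorem zeta_eq : zeta = omC := by
  have h : (2 * π * Complex.I / 3 : ℂ) = ((2 * π / 3 : ℝ) : ℂ) * Complex.I := by push_cast; ring
  rw [zeta, h, Complex.exp_mul_I, ← Complex.ofReal_cos, ← Complex.ofReal_sin]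
  have h1 : Real.cos (2 * π / 3) = -1 / 2 := by
    rw [show 2 * π / 3 = π - π / 3 by ring, Real.cos_pi_sub, Real.cos_pi_div_three]; ring
  have h2 : Real.sin (2 * π / 3) = √3 / 2 := by
    rw [show 2 * π / 3 = π - π / 3 by ring, Real.sin_pi_sub, Real.sin_pi_div_three]
  rw [h1, h2]
  apply Complex.ext
  · simp [omC]
  · simp [omC]

theorem emb_eq (z : Eis) : emb z = toC z := by
  rw [emb, zeta_eq, toC_apply]

theorem nrm_eq (z : Eis) : nrm z = N z := by
  have h := N_cast_int' z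
  rw [nrm]
  have : z.re ^ 2 - z.re * z.im + z.im ^ 2 = (N z : ℤ) := by rw [h]; ring
  rw [this]
  simp

theorem omega_eq : omega = om := rfl

theorem cubicChar_eq {ϖ : Eis} (h : Prime ϖ) (v : Eis) : cubicChar ϖ v = toC (sym v ϖ) := by
  classical
  rw [sym_prime h, cubicChar, symP, nrm_eq, zeta_eq, omega_eq]
  split_ifs
  · simp
  · simp
  · rw [toC_om]
  · rw [map_pow, toC_om]

theorem G_eq {ϖ : Eis} (h : Prime ϖ) : G ϖ = gt 1 ϖ := by
  have key : ∑ᶠ v : Eis ⧸ Ideal.span ({ϖ} : Set Eis),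
      cubicChar ϖ (rep ϖ v) * Complex.exp (2 * π * Complex.I *
      (emb (rep ϖ v) / emb ϖ + (starRingEnd ℂ) (emb (rep ϖ v) / emb ϖ))) = gs 1 ϖ := by
    rw [gs]
    refine finsum_congr fun v => ?_
    have hv : rs ϖ (rep ϖ v) = v := Function.surjInv_eq _ v
    rw [map_one, one_mul, cubicChar_eq h]
    conv_rhs => rw [← hv]
    rw [chi_rs, psi_rs, emb_eq, emb_eq, e, TrC, Complex.add_conj]
  rw [G, key, gt, nrm_eq, one_div, Complex.ofReal_inv]
  field_simp

theorem finsum_G (X : ℝ) : ∑ᶠ ϖ ∈ primaryPrimesLE X, G ϖ = ∑ q ∈ PP X, gt 1 q := by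
  have hs : primaryPrimesLE X = ((PP X : Finset Eis) : Set Eis) := by
    ext z
    rw [Finset.mem_coe, mem_PP, primaryPrimesLE, Set.mem_ofPred_eq, nrm_eq]
    constructor
    · rintro ⟨h1, h2, h3⟩
      exact ⟨⟨h2, h3⟩, h1⟩
    · rintro ⟨⟨h2, h3⟩, h1⟩
      exact ⟨h1, h2, h3⟩
  rw [hs, finsum_mem_coe_finset]
  refine Finset.sum_congr rfl fun ϖ hϖ => ?_
  rw [mem_PP] at hϖ
  exact G_eq hϖ.2

theorem primaryForm_of_wf
    (h : Tendsto (fun X : ℝ => ‖∑ q ∈ PP X, wf q‖ / (X ^ ((5 : ℝ) / 6) / Real.log X))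
      atTop (𝓝 0)) : PrimaryForm := by
  have h1 := primary_form_of_norm h
  unfold PrimaryForm
  refine h1.congr fun X => ?_
  rw [finsum_G, div_eq_mul_inv _ (((X ^ (5 / 6 : ℝ) / Real.log X : ℝ)) : ℂ), ← Complex.ofReal_inv,
    inv_div]

end Vale.Agent.P006.Std
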