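import Mathlib.Algebra.QuadraticAlgebra.Basic
import Mathlib.Analysis.SpecialFunctions.Complex.Log
import Mathlib.Analysis.SpecialFunctions.Gamma.Basic
import Mathlib.RingTheory.Ideal.Quotient.Basic

/-!
P006: definitions for the primary-prime form of Patterson's first moment conjecture.
-/

namespace Vale.Agent.P006.Std

open Filter Topology Real

/-- the Eisenstein integers `ℤ[ω]`: `z = z.re + z.im * ω`, `ω² = -1 - ω` -/
abbrev Eis : Type := QuadraticAlgebra ℤ (-1) (-1)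

/-- the element `ω` of `ℤ[ω]` -/
def omega : Eis := ⟨0, 1⟩

/-- the complex number `ω = e^{2πi/3}` -/
noncomputable def zeta : ℂ := Complex.exp (2 * π * Complex.I / 3)

/-- the embedding `ℤ[ω] → ℂ` -/
noncomputable def emb (z : Eis) : ℂ := z.re + z.im * zeta

/-- the norm `N(z) = z * conj z = a² - a b + b²` for `z = a + b ω` -/
def nrm (z : Eis) : ℕ := (z.re ^ 2 - z.re * z.im + z.im ^ 2).toNat

open Classical in
/-- the cubic residue symbol `χ_ϖ(v)` for a prime `ϖ` not dividing `3`: `0` if `ϖ ∣ v`, otherwise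
the cube root of unity congruent to `v^((N ϖ - 1)/3)` modulo `ϖ` -/
noncomputable def cubicChar (ϖ v : Eis) : ℂ :=
  if ϖ ∣ v then 0
  else if ϖ ∣ v ^ ((nrm ϖ - 1) / 3) - 1 then 1
  else if ϖ ∣ v ^ ((nrm ϖ - 1) / 3) - omega then zeta
  else zeta ^ 2

/-- a representative in `ℤ[ω]` of a residue class modulo `ϖ` -/
noncomputable def rep (ϖ : Eis) (v : Eis ⧸ Ideal.span ({ϖ} : Set Eis)) : Eis :=
  Function.surjInv Ideal.Quotient.mk_surjective v

/-- the normalized cubic Gauss sum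
`G(ϖ) = (N ϖ)^(-1/2) ∑_{v mod ϖ} χ_ϖ(v) e(Tr(v/ϖ))`, `e(x) = e^{2πix}`, `Tr(z) = z + conj z` -/
noncomputable def G (ϖ : Eis) : ℂ :=
  (1 / √(nrm ϖ : ℝ) : ℝ) * ∑ᶠ v : Eis ⧸ Ideal.span ({ϖ} : Set Eis),
    cubicChar ϖ (rep ϖ v) * Complex.exp (2 * π * Complex.I *
      (emb (rep ϖ v) / emb ϖ + (starRingEnd ℂ) (emb (rep ϖ v) / emb ϖ)))

/-- the set of primary primes of norm at most `X` -/
def primaryPrimesLE (X : ℝ) : Set Eis :=
  {ϖ | Prime ϖ ∧ (3 : Eis) ∣ ϖ - 1 ∧ (nrm ϖ : ℝ) ≤ X}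

/-- primary-prime form of Patterson's conjecture -/
def PrimaryForm : Prop :=
  Tendsto (fun X : ℝ =>
    (∑ᶠ ϖ ∈ primaryPrimesLE X, G ϖ) / ((X ^ (5 / 6 : ℝ) / Real.log X : ℝ) : ℂ))
    atTop (𝓝 ((6 / 5 * ((2 * π) ^ (2 / 3 : ℝ) / (3 * Real.Gamma (2 / 3))) : ℝ) : ℂ))

end Vale.Agent.P006.Std
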