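import Vale.Agent.P006.Main.Leaves
import Vale.Agent.P006.TIIC.Final
import Vale.Agent.P006.LVC.NCcq
import Vale.Agent.P006.LVC.NClamb

/-!
P006: Patterson's first moment conjecture (unconditional).
-/

namespace Vale.Agent.P006

open Finset Filter Topology

theorem nccenGoal : TIIC.NCcenGoal := by
  intro η hη hη3
  obtain ⟨κ₁, h1, e₁, h2, h3⟩ := LVC.tiic_nccen_lamb hη hη3
  obtain ⟨κ₂, k1, e₂, k2, k3⟩ := LVC.tiic_nccen_cq hη
  exact ⟨⟨κ₁, e₁, h1, h2, h3 κ₁ e₁ h1 le_rfl h2 le_rfl⟩,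
    ⟨κ₂, e₂, k1, k2, k3 κ₂ e₂ k1 le_rfl k2 le_rfl⟩⟩

theorem centreGoal : CentreGoal := TIIC.centreGoal_of nccenGoal

/-- `∑_{N ϖ ≤ X} (g̃(1, ϖ) - c_* N(ϖ)^(-1/6)) = o(X^{5/6} / log X)` over primary primes `ϖ` -/
theorem wf_final :
    Tendsto (fun X : ℝ => ‖∑ q ∈ PP X, wf q‖ / (X ^ ((5 : ℝ) / 6) / Real.log X)) atTop (𝓝 0) :=
  wf_of_centre centreGoal

/-- **Patterson's first moment conjecture** -/
theorem q1_final : Q1Stmt := q1_of_wf wf_final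

end Vale.Agent.P006
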