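import Vale.Agent.P006.TI.Hyp
import Vale.Agent.P006.SV.T1
import Vale.Agent.P006.V2.MSqOut
import Vale.Agent.P006.CR.CubeChar

/-!
P006: the sharp Type I estimate for `wf` from the automorphic input.
-/

namespace Vale.Agent.P006

open Finset

open Classical in
theorem divHyp_InP : H611.DivHyp InP := by
  intro ε hε
  obtain ⟨C, hC, h⟩ := exists_tau_le hε
  refine ⟨C, by linarith, fun c hc => ?_⟩
  obtain ⟨u, j, k, hu, hk, hcuk⟩ : ∃ (u : O) (j : ℕ) (k : O), IsUnit u ∧ Primary k ∧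
      c = u * lam ^ j * k := by
    obtain ⟨u, j, k, h⟩ := exists_factor hc
    exact ⟨u, j, k, by tauto⟩
  have hk0 : k ≠ 0 := hk.ne_zero
  have hsub : H611.pdiv InP c ⊆ dvs k := by
    intro m hm
    rw [H611.pdiv, mem_filter] at hm
    rw [mem_dvs hk0]
    refine ⟨hm.2.1.1, ?_⟩
    have h1 : m ∣ u * lam ^ j * k := hcuk ▸ hm.2.2
    have h2 : IsCoprime m (u * lam ^ j) := by
      refine IsCoprime.mul_right ?_ (IsCoprime.pow_right hm.2.1.1.isCoprime_lam.symm)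
      obtain ⟨v, hv⟩ := hu
      exact ⟨0, ((v⁻¹ : Oˣ) : O), by rw [← hv]; simp⟩
    exact h2.dvd_of_dvd_mul_left h1
  have hN : (N k : ℝ) ≤ N c := by
    have : N k ∣ N c := N_dvd_N ⟨u * lam ^ j, by rw [hcuk]; ring⟩
    exact_mod_cast Nat.le_of_dvd (N_pos hc) this
  calc ((H611.pdiv InP c).card : ℝ) ≤ ((dvs k).card : ℝ) := by exact_mod_cast card_le_card hsub
    _ ≤ C * (N k : ℝ) ^ ε := h k hk
    _ ≤ C * (N c : ℝ) ^ ε := by gcongr

theorem wf_of_not_squarefree (c : O) (h : ¬ Squarefree c) : wf c = 0 := wf_of_not fun h' => h h'.2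

/-- the sharp Type I estimate for `wf` -/
theorem t1s_wf {θ : O → ℂ} (h : V2.FCHyp θ) (hθ : V2.Rho θ)
    (h1 : θ 1 = (((cStar * TI.kap : ℝ)) : ℂ)) : SV.T1SHyp wf (1 / 1000) := by
  classical
  have hM : TI.MSq (gt 1) (((cStar * TI.kap : ℝ)) : ℂ) (9 / 5) (19 / 5) := by
    rw [← h1]
    exact V2.MSq_gt h hθ (by norm_num) (by norm_num)
  have hT := TI.T1Hyp_wf (by norm_num) (by norm_num) le_rfl le_rfl hM
  exact SV.t1s_of wf_of_not_squarefree
    (H611.type_one_sharp (fun c hc => hc.ne_zero) norm_wf_le_two divHyp_InP hT)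

/-- the mean square estimate for `wf` -/
theorem l2f_wf {θ : O → ℂ} (h : V2.FCHyp θ) (hθ : V2.Rho θ)
    (h1 : θ 1 = (((cStar * TI.kap : ℝ)) : ℂ)) : TI.L2f wf (9 / 5) (19 / 5) := by
  have hM : TI.MSq (gt 1) (((cStar * TI.kap : ℝ)) : ℂ) (9 / 5) (19 / 5) := by
    rw [← h1]
    exact V2.MSq_gt h hθ (by norm_num) (by norm_num)
  exact TI.L2f_wf (by norm_num) (by norm_num) hM

end Vale.Agent.P006
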